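import Vale.Agent.P296.Theta.Sections

/-!
# P296: the ruled surface of the unipotent extension is projective

The deck element `(m, n)` sends `(z, u)` to `(z + m + n τ, (u₀ - n u₁, u₁))`. For a degree three
theta section `f` the two functions `u₀ f + u₁ f' / α` and `u₁ f`, with `α = -6 π i`, are
equivariant for the multiplier of `f`. They embed the quotient of `ℂ × ℙ¹` in projective space.
-/

noncomputable section

namespace Vale.Agent.P296.Ruled

open Complex
open Vale.Agent.P296.Theta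
open scoped Real

/-- The logarithmic derivative of the degree three multiplier. -/
def alpha : ℂ := -(6 * (π : ℂ) * I)

lemma alpha_ne_zero : alpha ≠ 0 := by
  unfold alpha
  refine neg_ne_zero.2 (mul_ne_zero (mul_ne_zero (by norm_num) ?_) I_ne_zero)
  exact_mod_cast Real.pi_ne_zero

/-- The multiplier of the translation by `m + n τ`. -/
def mult (τ c : ℂ) (n : ℤ) (z : ℂ) : ℂ :=
  c ^ n * coord (-(3 * ((n : ℂ) * z + (n : ℂ) * ((n : ℂ) - 1) / 2 * τ)))

lemma mult_ne_zero {τ c : ℂ} (hc : c ≠ 0) (n : ℤ) (z : ℂ) : mult τ c n z ≠ 0 :=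
  mul_ne_zero (zpow_ne_zero _ hc) (coord_ne_zero _)

/-- The action on the fibre coordinates. -/
def act (n : ℤ) (u : ℂ × ℂ) : ℂ × ℂ := (u.1 - (n : ℂ) * u.2, u.2)

lemma coord_three (z : ℂ) : (coord z)⁻¹ ^ 3 = coord (-(3 * z)) := by
  rw [show -(3 * z) = ((-3 : ℤ) : ℂ) * z by push_cast; ring, coord_int_mul, zpow_neg, inv_pow,
    show ((3 : ℤ)) = ((3 : ℕ) : ℤ) by norm_num, zpow_natCast]

lemma mult_succ {τ c : ℂ} (hc : c ≠ 0) (n : ℤ) (z : ℂ) :
    mult τ c (n + 1) z = c * (coord (z + (n : ℂ) * τ))⁻¹ ^ 3 * mult τ c n z := by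
  rw [mult, mult, zpow_add₀ hc, zpow_one, coord_three]
  rw [show -(3 * (((n + 1 : ℤ) : ℂ) * z + ((n + 1 : ℤ) : ℂ) * (((n + 1 : ℤ) : ℂ) - 1) / 2 * τ))
      = -(3 * (z + (n : ℂ) * τ)) + -(3 * ((n : ℂ) * z + (n : ℂ) * ((n : ℂ) - 1) / 2 * τ)) by
    push_cast; ring, coord_add]
  ring

lemma hasDerivAt_factor (c z : ℂ) :
    HasDerivAt (fun x => c * (coord x)⁻¹ ^ 3) (c * (coord z)⁻¹ ^ 3 * alpha) z := by
  simp only [coord_three]
  have h := (((hasDerivAt_id' z).const_mul (3 : ℂ)).neg.const_mul (2 * (π : ℂ) * I)).cexp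
  refine (h.const_mul c).congr_deriv ?_
  simp only [coord, alpha, mul_one, Pi.neg_apply]
  ring

/-- A section and its derivative under one translation by `τ`. -/
lemma translate_one {τ c : ℂ} {f : ℂ → ℂ} (hf : f ∈ sections τ 3 c) (z : ℂ) :
    f (z + τ) = c * (coord z)⁻¹ ^ 3 * f z ∧
    deriv f (z + τ) = c * (coord z)⁻¹ ^ 3 * (deriv f z + alpha * f z) := by
  refine ⟨hf.2.2 z, ?_⟩
  have h1 : HasDerivAt (fun x => f (x + τ)) (deriv f (z + τ)) z :=
    HasDerivAt.comp_add_const z τ (hf.1 (z + τ)).hasDerivAt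
  have h2 := (hasDerivAt_factor c z).mul (hf.1 z).hasDerivAt
  rw [h1.unique (h2.congr_of_eventuallyEq (Filter.Eventually.of_forall fun x => hf.2.2 x))]
  ring

/-- A section and its derivative under a lattice translation. -/
lemma translate {τ c : ℂ} (hc : c ≠ 0) {f : ℂ → ℂ} (hf : f ∈ sections τ 3 c) (z : ℂ) (m n : ℤ) :
    f (z + m + n * τ) = mult τ c n z * f z ∧
    deriv f (z + m + n * τ) = mult τ c n z * (deriv f z + (n : ℂ) * alpha * f z) := by
  have hp : ∀ w (k : ℤ), f (w + k) = f w ∧ deriv f (w + k) = deriv f w := by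
    intro w k
    have hper : Function.Periodic f (k : ℂ) := by
      simpa using (Function.Periodic.int_mul (c := (1 : ℂ)) hf.2.1 k)
    refine ⟨hper w, ?_⟩
    conv_rhs => rw [← show (fun x => f (x + k)) = f from funext hper]
    rw [deriv_comp_add_const]
  rw [show z + (m : ℂ) + n * τ = z + n * τ + m by ring, (hp _ m).1, (hp _ m).2]
  clear hp
  induction n using Int.induction_on with
  | zero => simp [mult, coord]
  | succ k ih =>
    have h := translate_one hf (z + ((k : ℤ) : ℂ) * τ)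
    rw [ih.1, ih.2, show z + ((k : ℤ) : ℂ) * τ + τ = z + (((k : ℤ) + 1 : ℤ) : ℂ) * τ by
      push_cast; ring] at h
    rw [mult_succ hc, h.1, h.2]
    push_cast
    constructor <;> ring
  | pred k ih =>
    have h := translate_one hf (z + ((-(k : ℤ) - 1 : ℤ) : ℂ) * τ)
    rw [show z + ((-(k : ℤ) - 1 : ℤ) : ℂ) * τ + τ = z + ((-(k : ℤ) : ℤ) : ℂ) * τ by
      push_cast; ring, ih.1, ih.2] at h
    have hs := mult_succ (τ := τ) hc (-(k : ℤ) - 1) z
    rw [show -(k : ℤ) - 1 + 1 = -(k : ℤ) by ring] at hs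
    rw [hs] at h
    set e := c * (coord (z + ((-(k : ℤ) - 1 : ℤ) : ℂ) * τ))⁻¹ ^ 3 with he
    have he0 : e ≠ 0 := mul_ne_zero hc (pow_ne_zero _ (inv_ne_zero (coord_ne_zero _)))
    have h1 : f (z + ((-(k : ℤ) - 1 : ℤ) : ℂ) * τ) = mult τ c (-(k : ℤ) - 1) z * f z :=
      mul_left_cancel₀ he0 (by linear_combination -h.1)
    refine ⟨h1, mul_left_cancel₀ he0 ?_⟩
    rw [h1] at h
    have h2 := h.2
    push_cast at h2 ⊢
    linear_combination -h2

/-- The two equivariant functions of a theta section. -/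
def sect (f : ℂ → ℂ) (j : Fin 2) (z : ℂ) (u : ℂ × ℂ) : ℂ :=
  if j = 0 then u.1 * f z + u.2 * deriv f z / alpha else u.2 * f z

lemma sect_zero (f : ℂ → ℂ) (z : ℂ) (u : ℂ × ℂ) :
    sect f 0 z u = u.1 * f z + u.2 * deriv f z / alpha := if_pos rfl

lemma sect_one (f : ℂ → ℂ) (z : ℂ) (u : ℂ × ℂ) : sect f 1 z u = u.2 * f z :=
  if_neg (by decide)

lemma sect_smul (f : ℂ → ℂ) (j : Fin 2) (z : ℂ) (s : ℂ) (u : ℂ × ℂ) :
    sect f j z (s • u) = s * sect f j z u := by
  unfold sect
  split_ifs <;> simp only [Prod.smul_fst, Prod.smul_snd, smul_eq_mul] <;> ring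

lemma sect_sub (f : ℂ → ℂ) (j : Fin 2) (z : ℂ) (u v : ℂ × ℂ) :
    sect f j z (u - v) = sect f j z u - sect f j z v := by
  unfold sect
  split_ifs <;> simp only [Prod.fst_sub, Prod.snd_sub] <;> ring

/-- Equivariance. -/
theorem sect_translate {τ c : ℂ} (hc : c ≠ 0) {f : ℂ → ℂ} (hf : f ∈ sections τ 3 c) (j : Fin 2)
    (z : ℂ) (m n : ℤ) (u : ℂ × ℂ) :
    sect f j (z + m + n * τ) (act n u) = mult τ c n z * sect f j z u := by
  obtain ⟨h1, h2⟩ := translate hc hf z m n
  have ha := alpha_ne_zero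
  unfold sect act
  split_ifs <;> rw [h1] <;> [rw [h2]; skip] <;> field_simp <;> ring

lemma differentiable_sect {f : ℂ → ℂ} (hf : Differentiable ℂ f) (j : Fin 2) :
    Differentiable ℂ fun p : ℂ × (ℂ × ℂ) => sect f j p.1 p.2 := by
  have hd : Differentiable ℂ (deriv f) :=
    (hf.contDiff (n := 2)).differentiable_deriv_two
  unfold sect
  split_ifs <;> fun_prop

/-- The differential. -/
lemma fderiv_sect {f : ℂ → ℂ} (hf : Differentiable ℂ f) (j : Fin 2) (z ξ : ℂ) (u ν : ℂ × ℂ) :
    fderiv ℂ (fun p : ℂ × (ℂ × ℂ) => sect f j p.1 p.2) (z, u) (ξ, ν)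
      = ξ * sect (deriv f) j z u + sect f j z ν := by
  have hd : Differentiable ℂ (deriv f) :=
    (hf.contDiff (n := 2)).differentiable_deriv_two
  have hline : HasDerivAt (fun t : ℂ => ((z + t * ξ, u + t • ν) : ℂ × (ℂ × ℂ))) (ξ, ν) 0 := by
    refine (((hasDerivAt_id' (0 : ℂ)).mul_const ξ).const_add z).congr_deriv (one_mul ξ)
      |>.prodMk ((((hasDerivAt_id' (0 : ℂ)).smul_const ν).const_add u).congr_deriv (one_smul ℂ ν))
  have h0 : HasFDerivAt (fun p : ℂ × (ℂ × ℂ) => sect f j p.1 p.2)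
      (fderiv ℂ (fun p : ℂ × (ℂ × ℂ) => sect f j p.1 p.2) (z, u))
      ((fun t : ℂ => ((z + t * ξ, u + t • ν) : ℂ × (ℂ × ℂ))) 0) := by
    simpa using ((differentiable_sect hf j) (z, u)).hasFDerivAt
  refine (h0.comp_hasDerivAt (0 : ℂ) hline).unique ?_
  have hg : ∀ g : ℂ → ℂ, Differentiable ℂ g →
      HasDerivAt (fun t : ℂ => g (z + t * ξ)) (deriv g z * ξ) 0 := by
    intro g hg
    have h1 : HasDerivAt g (deriv g z) (z + 0 * ξ) := by simpa using (hg z).hasDerivAt
    simpa [Function.comp_def] using h1.comp (0 : ℂ) (((hasDerivAt_id' (0 : ℂ)).mul_const ξ).const_add z)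
  have h1 : HasDerivAt (fun t : ℂ => u.1 + t * ν.1) ν.1 0 := by
    simpa using ((hasDerivAt_id' (0 : ℂ)).mul_const ν.1).const_add u.1
  have h2 : HasDerivAt (fun t : ℂ => u.2 + t * ν.2) ν.2 0 := by
    simpa using ((hasDerivAt_id' (0 : ℂ)).mul_const ν.2).const_add u.2
  simp only [Function.comp_def, sect, Prod.fst_add, Prod.snd_add, Prod.smul_fst, Prod.smul_snd,
    smul_eq_mul]
  split_ifs
  · refine ((h1.fun_mul (hg f hf)).fun_add ((h2.fun_mul (hg (deriv f) hd)).div_const alpha)).congr_deriv ?_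
    simp only [zero_mul, add_zero]
    ring
  · refine (h2.fun_mul (hg f hf)).congr_deriv ?_
    simp only [zero_mul, add_zero]
    ring

/-- The theta sections embed the ruled surface: no common zero, separation of points up to the
deck group and scaling, and injective differential up to scaling. -/
theorem exists_ruled_embedding {τ c : ℂ} (hτ : 0 < τ.im) (hc : c ≠ 0) :
    ∃ (N : ℕ) (F : Fin N → ℂ → ℂ), (∀ i, F i ∈ sections τ 3 c) ∧
      (∀ z u, u ≠ 0 → ∃ i j, sect (F i) j z u ≠ 0) ∧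
      (∀ z w u v, u ≠ 0 → v ≠ 0 → ∀ t : ℂ,
        (∀ i j, sect (F i) j w v = t * sect (F i) j z u) →
        ∃ m n : ℤ, w = z + m + n * τ ∧ ∃ s : ℂ, v = s • act n u) ∧
      ∀ z u, u ≠ 0 → ∀ (ξ : ℂ) (ν : ℂ × ℂ) (t : ℂ),
        (∀ i j, fderiv ℂ (fun p : ℂ × (ℂ × ℂ) => sect (F i) j p.1 p.2) (z, u) (ξ, ν)
          = t * sect (F i) j z u) →
        ξ = 0 ∧ ∃ s : ℂ, ν = s • u := by
  obtain ⟨N, F, hF, hne, hsep, htan⟩ := exists_embedding hτ hc
  have ha := alpha_ne_zero
  have hzero : ∀ z u, (∀ i j, sect (F i) j z u = 0) → u = 0 := by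
    intro z u h
    obtain ⟨i, hi⟩ := hne z
    have h2 : u.2 = 0 := by
      have := h i 1
      rw [sect_one] at this
      exact (mul_eq_zero.1 this).resolve_right hi
    have h1 : u.1 = 0 := by
      have := h i 0
      rw [sect_zero, h2, zero_mul, zero_div, add_zero] at this
      exact (mul_eq_zero.1 this).resolve_right hi
    exact Prod.ext h1 h2
  refine ⟨N, F, hF, fun z u hu => ?_, fun z w u v hu hv t ht => ?_, fun z u hu ξ ν t ht => ?_⟩
  · by_contra h
    push Not at h
    exact hu (hzero z u h)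
  · have ht0 : t ≠ 0 := fun h0 => hv (hzero w v fun i j => by rw [ht i j, h0, zero_mul])
    have e1 : ∀ i, v.2 * F i w = t * (u.2 * F i z) := fun i => by
      simpa only [sect_one] using ht i 1
    have hmem : w - z ∈ lattice τ := by
      by_cases hu2 : u.2 = 0
      · obtain ⟨i, hi⟩ := hne w
        have hv2 : v.2 = 0 := by
          have := e1 i
          rw [hu2, zero_mul, mul_zero] at this
          exact (mul_eq_zero.1 this).resolve_right hi
        have hv1 : v.1 ≠ 0 := fun h1 => hv (Prod.ext h1 hv2)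
        refine hsep z w (t * u.1 / v.1) fun i => ?_
        have := ht i 0
        rw [sect_zero, sect_zero, hu2, hv2, zero_mul, zero_mul, zero_div, add_zero, add_zero] at this
        field_simp
        linear_combination this
      · obtain ⟨i, hi⟩ := hne z
        have hv2 : v.2 ≠ 0 := fun h2 => by
          have := e1 i
          rw [h2, zero_mul] at this
          exact mul_ne_zero ht0 (mul_ne_zero hu2 hi) this.symm
        refine hsep z w (t * u.2 / v.2) fun i => ?_
        field_simp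
        linear_combination e1 i
    obtain ⟨m, n, hmn⟩ := mem_lattice.1 hmem
    have hw : w = z + m + n * τ := by linear_combination hmn
    refine ⟨m, n, hw, t / mult τ c n z, ?_⟩
    refine sub_eq_zero.1 (hzero w _ fun i j => ?_)
    rw [sect_sub, sect_smul, ht i j, hw, sect_translate hc (hF i)]
    field_simp [mult_ne_zero hc n z]
    ring
  · simp only [fderiv_sect (hF _).1] at ht
    have e1 : ∀ i, ξ * (u.2 * deriv (F i) z) + ν.2 * F i z = t * (u.2 * F i z) := fun i => by
      simpa only [sect_one] using ht i 1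
    have e0 : ∀ i, ξ * (u.1 * deriv (F i) z + u.2 * deriv (deriv (F i)) z / alpha)
        + (ν.1 * F i z + ν.2 * deriv (F i) z / alpha)
        = t * (u.1 * F i z + u.2 * deriv (F i) z / alpha) := fun i => by
      simpa only [sect_zero] using ht i 0
    obtain ⟨i, hi⟩ := hne z
    have key : ξ = 0 ∧ ν.2 = t * u.2 := by
      by_cases hu2 : u.2 = 0
      · have hν : ν.2 = 0 := by
          have := e1 i
          simp only [hu2, zero_mul, mul_zero, zero_add] at this
          exact (mul_eq_zero.1 this).resolve_right hi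
        refine ⟨?_, by rw [hν, hu2, mul_zero]⟩
        have hu1 : u.1 ≠ 0 := fun h1 => hu (Prod.ext h1 hu2)
        by_contra hξ
        obtain ⟨k, hk⟩ := htan z ((t * u.1 - ν.1) / (ξ * u.1))
        refine hk ?_
        have := e0 k
        simp only [hu2, hν, zero_mul, zero_div, add_zero] at this
        field_simp
        linear_combination this
      · have hξ : ξ = 0 := by
          by_contra hξ
          obtain ⟨k, hk⟩ := htan z ((t * u.2 - ν.2) / (ξ * u.2))
          refine hk ?_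
          field_simp
          linear_combination e1 k
        refine ⟨hξ, mul_right_cancel₀ hi ?_⟩
        have := e1 i
        rw [hξ] at this
        linear_combination this
    obtain ⟨hξ, hν⟩ := key
    refine ⟨hξ, t, Prod.ext ?_ ?_⟩
    · refine mul_right_cancel₀ hi ?_
      have := e0 i
      rw [hξ, hν] at this
      simp only [Prod.smul_fst, smul_eq_mul]
      linear_combination this
    · simpa using hν

end Vale.Agent.P296.Ruled
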